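import Vale.Agent.P272.ALStep

/-! Calabi-Yau theorem: uniform Hoelder bounds and regularity of the limit. -/

set_option linter.unusedSectionVars false

open MeasureTheory Set Filter Topology Metric Matrix
open scoped ContDiff ComplexConjugate ComplexOrder

noncomputable section

namespace Vale.Agent.P272.AL

open Vale.Agent.P271 Vale.Agent.P227

variable {n : ℕ} {X : Type} [TopologicalSpace X] [T2Space X] [CompactSpace X]
  [MeasurableSpace X] {M : Model n X} {C : Cut M} {a b : M.ι} {θ θ' u v w g : X → ℝ} {p : X}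
  {k : ℕ} {c K N s c₀ K₀ : ℝ} {A G G₀ : M.ι → E (n + n) → Mat (n + n)} {D : (X → ℝ) → X → ℝ}
  {η κ : Frm M.toAtl}

theorem ext_eq (hκ : Kae M.toAtl κ) (h₀ : Ext C c₀ K₀ κ G₀) (hv : M.Sm v)
    (h : Ext C c K (κ + ddc M.toAtl v) G) (hp : p ∈ tsupport (C.χ a)) :
    G₀ a (ra M a p) + Pq (Jm n) (hz C a v (ra M a p)) = G a (ra M a p) := by
  rw [← h₀.chart hκ.1 hv hp, h.eq a p hp]

theorem nk_lap (hκ : Kae M.toAtl κ) (hc₀ : 0 < c₀) (hK₀ : 0 ≤ K₀) (h₀ : Ext C c₀ K₀ κ G₀)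
    (hK : 0 ≤ K) : ∃ N, 0 ≤ N ∧ ∀ v G, M.Sm v → Ext C c K (κ + ddc M.toAtl v) G →
      Nk C 0 (Lap κ v) N := by
  obtain ⟨c', K', -, hK', H⟩ := ell_inv (n + n) hc₀ hK₀
  obtain ⟨B, hB, hB1⟩ := nk_of_sm C 0 (sm_const M 1)
  refine ⟨2 * B * (|1 / 2| * (2 * ((n + n : ℕ) : ℝ) ^ 2 * K' * (K + K₀))), by positivity,
    fun v G hv h a => ?_⟩
  have e : lz M (C.χ a) a (Lap κ v) = fun x => lz M (C.χ a) a (fun _ => 1) x *
      (1 / 2 * ∑ i, ∑ j, (G₀ a x)⁻¹ i j * (G a x - G₀ a x) i j) :=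
    lz_eq_mul fun p _ hp => by
      have hp' : p ∈ tsupport (C.χ a) := subset_tsupport _ hp
      rw [h₀.lap hκ hv hp', cf, smul_ct, ← ct_Pq, ← ext_eq hκ h₀ hv h hp', add_sub_cancel_left]
      rfl
  change Hn _ _
  rw [e]
  exact Hn.mul (hB1 a) ((HM.contract hK' (by positivity) (H _ (h₀.ell a) (h₀.hm a)).2
    ((h.hm a).sub' (h₀.hm a))).const_mul (1 / 2))

theorem nk_two (hn : 0 < n) (hκ : Kae M.toAtl κ) (hc₀ : 0 < c₀) (hK₀ : 0 ≤ K₀)
    (h₀ : Ext C c₀ K₀ κ G₀) (hK : 0 ≤ K) {L : ℝ} (hL : 0 ≤ L) :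
    ∃ N, ∀ v G, M.Sm v → (∀ p, |v p| ≤ L) → Ext C c K (κ + ddc M.toAtl v) G → Nk C 2 v N := by
  obtain ⟨c₁, K₁, hc₁, hK₁, hop⟩ := Ext.op C hc₀ hK₀
  obtain ⟨C₁, hC₁, hsol⟩ := op_solve hn C hc₁ hK₁
  obtain ⟨N₁, hN₁, h1⟩ := nk_lap (c := c) hκ hc₀ hK₀ h₀ hK
  obtain ⟨C₂, hC₂, hI⟩ := nk_interp C (ε := 1 / (2 * C₁)) (by positivity)
  have hO := hop κ G₀ hκ h₀
  set B := C₁ * (N₁ + C₂ * L) with hB
  have hB0 : 0 ≤ B := by positivity
  refine ⟨1 + 2 * B, fun v G hv hvL h => ?_⟩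
  have step : ∀ N', 0 ≤ N' → Nk C 2 v N' → Nk C 2 v (N' / 2 + B) := fun N' h0 hN' => by
    obtain ⟨d, hd, hd2, hde⟩ := hsol _ _ hO _ _ (by positivity) (sm_sub (hO.sm v hv) hv)
      ((h1 v G hv h).sub (hI v N' L h0 hL hN' hvL))
    have e : v = d := by
      funext p
      have h3 := op_max (s := 0) hO one_pos (sm_sub hv hd) (fun q => by
        rw [hO.sub hv hd]
        have := hde q
        exact le_of_eq (abs_eq_zero.2 (by linarith))) p
      rw [zero_div] at h3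
      exact sub_eq_zero.1 (abs_nonpos_iff.1 h3)
    rw [← e] at hd2
    refine hd2.mono (le_of_eq ?_)
    rw [hB]
    field_simp
    ring
  obtain ⟨N₀, hN₀, h2⟩ := nk_of_sm C 2 hv
  have key : ∀ j : ℕ, Nk C 2 v (N₀ / 2 ^ j + 2 * B) := fun j => by
    induction j with
    | zero => exact h2.mono (by simpa using hB0)
    | succ j ih =>
      refine (step _ (by positivity) ih).mono (le_of_eq ?_)
      field_simp
      ring
  obtain ⟨j, hj⟩ := pow_unbounded_of_one_lt N₀ (one_lt_two (α := ℝ))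
  refine (key j).mono ?_
  have : N₀ / 2 ^ j ≤ 1 := (div_le_one (by positivity)).2 hj.le
  linarith

theorem exists_cut_two (C₁ : Cut M) : ∃ C₂ : Cut M, C₂.χ = C₁.ψ := by
  choose θ h1 h2 h3 using fun a =>
    exists_bump (M := M) (a := a) (isClosed_tsupport (C₁.ψ a)).isCompact (C₁.bψ a).2
  exact ⟨⟨C₁.ψ, θ, C₁.bψ, h1, fun a p => ⟨(C₁.mem a p).2.2.1, (C₁.mem a p).2.2.2, h2 a p⟩,
    fun a p hp => C₁.oneψ a p (C₁.rho_sub a hp), h3⟩, rfl⟩

theorem non_reg0 {c' : ℝ} (C₁ : Cut M) (hC : C.χ = C₁.ψ) (hc : 0 < c) (h : Ext C c K η G)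
    (hN : 0 ≤ N) (hw : Nk C 2 w N) (hc' : 0 < c')
    (hE : ∀ a, ∀ p ∈ tsupport (C.χ a), ∀ v : Fin (n + n) → ℝ,
      c' * (v ⬝ᵥ v) ≤ v ⬝ᵥ (G a (ra M a p) + Pq (Jm n) (hz C a w (ra M a p))) *ᵥ v) (hg : M.Sm g)
    (he : ∀ a, ∀ p ∈ tsupport (C.χ a),
      Real.log (G a (ra M a p) + Pq (Jm n) (hz C a w (ra M a p))).det -
        Real.log (G a (ra M a p)).det = 2 * g p) : M.Sm w := by
  obtain ⟨C₀, hC₀, hq0⟩ := alq_hm C
  set Λ : ℝ := ((n + n : ℕ) : ℝ) * (C₀ * N) with hΛ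
  have hΛ0 : 0 ≤ Λ := by positivity
  set β : M.ι → E (n + n) → ℝ := fun a => lz M (C.χ a) a fun _ => 1 with hβ
  have hβT : ∀ a, Tf (β a) := fun a => lz_tf (C.bχ a) (sm_const M 1)
  have hβ1 : ∀ a x, β a x ≤ 1 := fun a x => by
    by_cases h0 : β a x = 0
    · rw [h0]; exact zero_le_one
    · obtain ⟨p, hp, -, rfl⟩ := lz_ne h0
      simp only [hβ, lz_ra hp, mul_one]
      exact (C.mem a p).2.1
  set G' : M.ι → E (n + n) → Mat (n + n) := fun a x => G a x + (Λ * (1 - β a x)) • 1 with hG'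
  have hk' : ∀ a k i j, Hk k fun x => G' a x i j := fun a k i j =>
    (h.hk a k i j).add ((((Hk.const k 1).sub ((hβT a).hk k)).const_mul Λ).mul (Hk.const k _))
  have hE' : ∀ a, Ell (fun x => G' a x + Pq (Jm n) (hz C a w x)) (min c c') := fun a x => by
    obtain ⟨-, a2, a3⟩ := hq0 w N hw a
    have a4 : (Pq (Jm n) (hz C a w x)).IsSymm := by simpa using (a2 x).neg
    refine ⟨((h.ell a x).1.add (isSymm_one.smul _)).add a4, fun v => ?_⟩
    have v0 : 0 ≤ v ⬝ᵥ v := Finset.sum_nonneg fun i _ => mul_self_nonneg (v i)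
    have b1 := mul_le_mul_of_nonneg_right (min_le_left c c') v0
    have b2 := mul_le_mul_of_nonneg_right (min_le_right c c') v0
    simp only [hG', add_mulVec, smul_mulVec, one_mulVec, dotProduct_add, dotProduct_smul,
      smul_eq_mul]
    by_cases h0 : β a x = 0
    · have b3 := (h.ell a x).2 v
      have b4 := quad_le (fun i j => (a3 i j).1 x) v
      rw [neg_mulVec, dotProduct_neg, abs_neg] at b4
      rw [h0, sub_zero, mul_one]
      linarith [neg_le_of_abs_le b4]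
    · obtain ⟨p, -, hp, rfl⟩ := lz_ne h0
      have b3 := hE a p (subset_tsupport _ hp) v
      rw [add_mulVec, dotProduct_add] at b3
      have b4 := mul_nonneg (mul_nonneg hΛ0 (sub_nonneg.2 (hβ1 a (ra M a p)))) v0
      linarith
  have hs : ∀ a, ∀ p ∈ tsupport (C.χ a), p ∈ (M.e a).source := fun a p hp => (C.bχ a).2 hp
  have hθ : ∀ a, Tf (lz M (M.ρ a) a fun _ => 1) := fun a => lz_tf (bump_rho M a) (sm_const M 1)
  have hm : ∀ a, lz M (M.ρ a) a w
      = fun x => lz M (M.ρ a) a (fun _ => 1) x * lz M (C.ψ a) a w x := fun a =>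
    lz_mul (fun p hp => C.psi_one (by rw [C.chi_one hp]; exact one_ne_zero)) a w
  have hf : ∀ a k, Hk k fun x =>
      lz M (C.ψ a) a (fun _ => 1) x * Real.log (G a x).det + 2 * lz M (C.ψ a) a g x := fun a k =>
    (((lz_tf (C.bψ a) (sm_const M 1)).mul (contDiff_logdet hc (h.ell a) (h.hk a))).hk k).add
      (((lz_tf (C.bψ a) hg).hk k).const_mul 2)
  have hq : ∀ a, ∀ x ∈ ra M a '' tsupport (C₁.χ a),
      Real.log (G' a x + Pq (Jm n) (P227.hs (lz M (C.ψ a) a w) x)).det =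
        lz M (C.ψ a) a (fun _ => 1) x * Real.log (G a x).det + 2 * lz M (C.ψ a) a g x := by
    rintro a _ ⟨p, hp₁, rfl⟩
    have hp : p ∈ tsupport (C.χ a) := by rw [hC]; exact C₁.chi_sub a hp₁
    have h1 := he a p hp
    have h2 : β a (ra M a p) = 1 := by
      simp only [hβ, lz_ra (hs a p hp), mul_one]
      rw [hC]
      exact (C₁.oneψ a p hp₁).self_of_nhds
    simp only [hG', h2, sub_self, mul_zero, zero_smul, add_zero]
    rw [lz_ra (hs a p hp), lz_ra (hs a p hp), (C.oneψ a p hp).self_of_nhds]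
    rw [hz] at h1
    linarith
  have hc2 := lt_min hc hc'
  have key : ∀ k a, Hk (k + 3) (lz M (M.ρ a) a w) := fun k => by
    induction k with
    | zero =>
      intro a
      rw [hm]
      exact reg_first hc2 (hθ a) (near_rho C₁ a) (hk' a 1) (hw.hk (C.bψ a)) (hE' a)
        (hf a 1) (hq a)
    | succ k ih =>
      intro a
      rw [hm]
      exact reg_high hc2 (hθ a) (near_rho C₁ a) (hk' a (k + 2)) (hk_lz C ih (C.bψ a)) (hE' a)
        (hf a (k + 2)) (hq a)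
  exact sm_of_hk C fun k b => hk_of_le (key k b) (Nat.le_add_right k 3)

end Vale.Agent.P272.AL
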