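import Vale.Agent.P299Y.Est
import Vale.Agent.P299Y.Reg

/-! The Calabi-Yau theorem: every smooth volume form is, up to a constant factor, the volume form of a
Kaehler metric in a given class. -/

open MeasureTheory Set Filter Topology Metric Matrix
open scoped ContDiff ComplexConjugate ComplexOrder

noncomputable section

namespace Vale.Agent.P272

open Vale.Agent.P271 Vale.Agent.P227 AL

variable {n : ℕ} {X : Type} [TopologicalSpace X] [T2Space X] [CompactSpace X]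
  [MeasurableSpace X] [BorelSpace X] {M : Model n X}

theorem aubin_yau_t (hn : 0 < n) {κ : Frm M.toAtl} (hκ : Kae M.toAtl κ) {F : X → ℝ} (hF : M.Sm F)
    {t : ℝ} (ht : 0 < t) : ∃ u, M.Sm u ∧ PosF M.toAtl (κ + ddc M.toAtl u) ∧
      ∀ p, dt M (κ + ddc M.toAtl u) p = Real.exp (t * u p + F p) := by
  obtain ⟨u, hu, hp, hd⟩ := aubin_yau hn (hκ.smul ht) (sm_add hF (sm_const M (n * Real.log t)))
  have hη : Kae M.toAtl (t • κ + ddc M.toAtl u) := ⟨(hκ.smul ht).1.add (isF_ddc hu), hp⟩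
  have e : κ + ddc M.toAtl (t⁻¹ • u) = t⁻¹ • (t • κ + ddc M.toAtl u) := by
    rw [ddc_smul, smul_add, smul_smul, inv_mul_cancel₀ ht.ne', one_smul]
  refine ⟨t⁻¹ • u, fun a => (hu a).const_smul t⁻¹, by rw [e]; exact (hη.smul (inv_pos.2 ht)).2,
    fun p => ?_⟩
  rw [e, dt_smul hη.1, hd, Pi.smul_apply, smul_eq_mul, mul_inv_cancel_left₀ ht.ne', ← add_assoc,
    Real.exp_add _ (n * Real.log t), Real.exp_nat_mul, Real.exp_log ht, inv_pow]
  field_simp

/-- The Calabi-Yau theorem. -/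
theorem calabi_yau [ConnectedSpace X] (hn : 0 < n) {κ : Frm M.toAtl} (hκ : Kae M.toAtl κ)
    {F : X → ℝ} (hF : M.Sm F) : ∃ (u : X → ℝ) (s : ℝ), M.Sm u ∧ PosF M.toAtl (κ + ddc M.toAtl u) ∧
      ∀ p, dt M (κ + ddc M.toAtl u) p = Real.exp (s + F p) := by
  obtain ⟨C₁⟩ := exists_cut M
  obtain ⟨C, hC⟩ := exists_cut_two C₁
  obtain ⟨p₀⟩ := (inferInstance : Nonempty X)
  have h₀ := sm_log_dt hκ
  have hKc : ∀ a, IsCompact (M.e a '' tsupport (C.ψ a)) := fun a =>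
    (isClosed_tsupport _).isCompact.image_of_continuousOn ((M.e a).continuousOn.mono (C.bψ a).2)
  have hKt : ∀ a, M.e a '' tsupport (C.ψ a) ⊆ (M.e a).target := fun a => by
    rintro _ ⟨p, hp, rfl⟩
    exact (M.e a).map_source ((C.bψ a).2 hp)
  obtain ⟨c₀, K₀, G₀, hc₀, hK₀, hG₀⟩ : ∃ c₀ K₀ G₀, 0 < c₀ ∧ 0 ≤ K₀ ∧ Ext C c₀ K₀ κ G₀ := by
    obtain ⟨c, L, hc, hL, hap⟩ := apriori_t hn hκ h₀ hKc hKt
    obtain ⟨c', K', hc', hK', hext⟩ := exists_ext C hc hL
    have e : κ + ddc M.toAtl (fun _ => 0) = κ := add_zero κ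
    have h1 := (hap 0 ⟨le_rfl, zero_le_one⟩ (fun _ => 0) (sm_const M 0) (by rw [e]; exact hκ.2)
      fun p => by rw [e]; simp [Real.exp_log (dt_pos hκ p)]).2.2
    rw [e] at h1
    obtain ⟨G, hG⟩ := hext κ hκ h1
    exact ⟨c', K', G, hc', hK', hG⟩
  obtain ⟨c, L, hc, hL, hap⟩ := apriori_t hn hκ hF hKc hKt
  obtain ⟨c', K', hc', hK', hext⟩ := exists_ext C hc hL
  obtain ⟨N, hN⟩ := nk_two (c := c') hn hκ hc₀ hK₀ hG₀ hK' hL
  have ht0 : ∀ j : ℕ, (0 : ℝ) < 1 / ((j : ℝ) + 1) := fun j => Nat.one_div_pos_of_nat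
  have ht1 : ∀ j : ℕ, 1 / ((j : ℝ) + 1) ≤ 1 := fun j => by
    rw [div_le_one (by positivity)]
    linarith [(Nat.cast_nonneg j : (0 : ℝ) ≤ j)]
  choose u hu hp hd using fun j : ℕ => aubin_yau_t hn hκ hF (ht0 j)
  have hb := fun j => hap _ ⟨(ht0 j).le, ht1 j⟩ (u j) (hu j) (hp j) (hd j)
  set v : ℕ → X → ℝ := fun j p => u j p - u j p₀ with hv
  have hvs : ∀ j, M.Sm (v j) := fun j => sm_sub (hu j) (sm_const M _)
  have hvL : ∀ j p, |v j p| ≤ L := fun j p =>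
    abs_le.2 ⟨by linarith [(hb j).2.1 p p₀], (hb j).2.1 p₀ p⟩
  have hk : ∀ j, Kae M.toAtl (κ + ddc M.toAtl (v j)) := fun j =>
    ⟨hκ.1.add (isF_ddc (hvs j)), posF_shift (hp j) _⟩
  choose G hG using fun j => hext _ (hk j) (by
    simp only [hv, LM_shift]
    exact (hb j).2.2)
  have hvN : ∀ j, Nk C 2 (v j) N := fun j => hN _ _ (hvs j) (hvL j) (hG j)
  obtain ⟨w, hw, hl, hh⟩ := nk_lim hvN
  obtain ⟨s, hs⟩ := UF_lim fun j => (hb j).1 p₀
  have t1 : ∀ a x, Tendsto (fun j => G₀ a x + Pq (Jm n) (hz C a (v j) x)) UF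
      (𝓝 (G₀ a x + Pq (Jm n) (hz C a w x))) := fun a x =>
    ((continuous_const.add (Pq_cont _)).tendsto _).comp
      (tendsto_pi_nhds.2 fun i => tendsto_pi_nhds.2 fun l => hh a x i l)
  have hE : ∀ a, ∀ p ∈ tsupport (C.χ a), ∀ y : Fin (n + n) → ℝ,
      c' * (y ⬝ᵥ y) ≤ y ⬝ᵥ (G₀ a (ra M a p) + Pq (Jm n) (hz C a w (ra M a p))) *ᵥ y := by
    intro a p hp y
    have t2 : Continuous fun H : Mat (n + n) => y ⬝ᵥ H *ᵥ y :=
      continuous_const.dotProduct (continuous_id.matrix_mulVec continuous_const)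
    refine ge_of_tendsto' ((t2.tendsto _).comp (t1 a _)) fun j => ?_
    simp only [Function.comp, ext_eq hκ hG₀ (hvs j) (hG j) hp]
    exact ((hG j).ell a _).2 y
  have hsym : ∀ a x, (G₀ a x + Pq (Jm n) (hz C a w x)).IsSymm := fun a x => by
    obtain ⟨C₀, -, hq0⟩ := alq_hm C
    exact (hG₀.ell a x).1.add (by simpa using ((hq0 w N hw a).2.1 x).neg)
  have he : ∀ a, ∀ p ∈ tsupport (C.χ a),
      Real.log (G₀ a (ra M a p) + Pq (Jm n) (hz C a w (ra M a p))).det -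
        Real.log (G₀ a (ra M a p)).det = 2 * (s + F p - Real.log (dt M κ p)) := by
    intro a p hp
    have t2 : Continuous fun H : Mat (n + n) => H.det := continuous_id.matrix_det
    have t3 := (((t2.tendsto _).comp (t1 a _)).log
      (posDef_of_ell hc' (hsym a _) (hE a p hp)).det_pos.ne').sub_const
        (Real.log (G₀ a (ra M a p)).det)
    have t4 : Tendsto (fun j : ℕ => 1 / ((j : ℝ) + 1) * v j p) UF (𝓝 (0 * w p)) :=
      (tendsto_one_div_add_atTop_nhds_zero_nat.mono_left UF_le).mul (hl p)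
    have t5 := (((t4.add hs).add_const (F p)).sub_const (Real.log (dt M κ p))).const_mul 2
    rw [zero_mul, zero_add] at t5
    refine tendsto_nhds_unique t3 (t5.congr fun j => ?_)
    simp only [Function.comp]
    rw [← hG₀.logdt hκ (hvs j) (hk j) hp]
    simp only [hv, dt_shift, hd, Real.log_exp]
    ring
  have hN0 : 0 ≤ N := (abs_nonneg _).trans (hw.abs_le p₀)
  have hws := non_reg0 C₁ hC hc₀ hG₀ hN0 hw hc' hE (sm_sub (sm_add (sm_const M s) hF) h₀) he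
  have hη := hκ.1.add (isF_ddc hws)
  have hk' : Kae M.toAtl (κ + ddc M.toAtl w) := ⟨hη, ApiX2_posF hη fun p => by
    obtain ⟨a, ha⟩ := exists_rho M p
    have h1 := C.rho_sub a ha
    refine ⟨a, alext_src C h1, posDef_of_rl
      (LM_herm (hη.smAt ((M.e a).map_source (alext_src C h1)))) hc' fun y => ?_⟩
    rw [hG₀.chart hκ.1 hws h1]
    exact hE a p h1 y⟩
  refine ⟨w, s, hws, hk'.2, fun p => ?_⟩
  obtain ⟨a, ha⟩ := exists_rho M p
  have h2 := hG₀.logdt hκ hws hk' (C.rho_sub a ha)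
  rw [he a p (C.rho_sub a ha)] at h2
  rw [← Real.exp_log (dt_pos hk' p)]
  congr 1
  linarith

end Vale.Agent.P272
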