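import Vale.Agent.P272.PartA
import Vale.Agent.P272.PartP
import Vale.Agent.P299Y.CalB

/-! Calabi-Yau theorem: a priori estimates for `dt (κ + ddc u) = exp (t u + F)`, uniform in `t`. -/

open MeasureTheory Set Filter Topology Metric Matrix
open scoped ContDiff ComplexConjugate ComplexOrder

noncomputable section

namespace Vale.Agent.P272

open Vale.Agent.P271 AP

variable {n : ℕ} {X : Type} [TopologicalSpace X] [T2Space X] [CompactSpace X]
  [MeasurableSpace X] [BorelSpace X] {M : Model n X}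

theorem LM_sub_const (φ : Cn n → ℝ) (c : ℝ) : LM (fun y => φ y - c) = LM φ := by
  funext z
  ext j k
  have e : dzb (Pi.single j 1) (fun w => ((φ w - c : ℝ) : ℂ)) =
      dzb (Pi.single j 1) fun w => (φ w : ℂ) := by
    funext w
    simp only [dzb, Complex.ofReal_sub, fderiv_sub_const]
  simp only [LM, lev, of_apply, e]

omit [T2Space X] [CompactSpace X] [BorelSpace X] in
theorem LM_shift (κ : Frm M.toAtl) (u : X → ℝ) (c : ℝ) (a : M.ι) :
    LM ((κ + ddc M.toAtl fun p => u p - c) a) = LM ((κ + ddc M.toAtl u) a) := by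
  rw [← LM_sub_const ((κ + ddc M.toAtl u) a) c]
  congr 1
  funext z
  simp only [Pi.add_apply, ddc, Atl.loc]
  ring

omit [T2Space X] [CompactSpace X] [BorelSpace X] in
theorem dt_shift (κ : Frm M.toAtl) (u : X → ℝ) (c : ℝ) (p : X) :
    dt M (κ + ddc M.toAtl fun p => u p - c) p = dt M (κ + ddc M.toAtl u) p := by
  rw [dt, dt, GM, GM, LM_shift]

omit [T2Space X] [CompactSpace X] [BorelSpace X] in
theorem posF_shift {κ : Frm M.toAtl} {u : X → ℝ} (h : PosF M.toAtl (κ + ddc M.toAtl u)) (c : ℝ) :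
    PosF M.toAtl (κ + ddc M.toAtl fun p => u p - c) := fun a z hz => by
  rw [LM_shift]
  exact h a z hz

theorem c0_t {κ : Frm M.toAtl} (hκ : Kae M.toAtl κ) (E : ℝ) :
    ∃ L : ℝ, ∀ (t : ℝ) (F u : X → ℝ), 0 ≤ t → (∀ p, |F p| ≤ E) → M.Sm u →
      PosF M.toAtl (κ + ddc M.toAtl u) →
      (∀ p, dt M (κ + ddc M.toAtl u) p = Real.exp (t * u p + F p)) → ∀ p, |t * u p| ≤ L := by
  obtain ⟨D, -, hD⟩ := APC2_bdd (sm_log_dt hκ).continuous
  refine ⟨D + E, fun t F u ht hF hu hpos heq p => ?_⟩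
  have hη : Kae M.toAtl (κ + ddc M.toAtl u) := ⟨hκ.1.add (isF_ddc hu), hpos⟩
  have hG := GM_add hκ.1 (isF_ddc hu)
  rw [abs_le]
  constructor
  · have hu' : M.Sm ((-1 : ℝ) • u) := fun a => (hu a).const_smul (-1 : ℝ)
    obtain ⟨q, hq⟩ := APC2_max hu'.continuous p
    have h1 := GM_of_max hu' hq
    rw [ddc_smul, GM_smul (isF_ddc hu)] at h1
    have h2 : dt M κ q ≤ dt M (κ + ddc M.toAtl u) q :=
      dt_mono ((posF_iff hκ.1).1 hκ.2 q).posSemidef (by rw [hG]; simpa using h1)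
    rw [heq, ← Real.log_le_iff_le_exp (dt_pos hκ q)] at h2
    have h3 := hq p
    simp only [Pi.smul_apply, smul_eq_mul] at h3
    have h4 := mul_le_mul_of_nonneg_left (show u q ≤ u p by linarith) ht
    linarith [(abs_le.1 (hD q)).1, (abs_le.1 (hF q)).2]
  · obtain ⟨q, hq⟩ := APC2_max hu.continuous p
    have h1 := GM_of_max hu hq
    have h2 : dt M (κ + ddc M.toAtl u) q ≤ dt M κ q :=
      dt_mono ((posF_iff hη.1).1 hη.2 q).posSemidef (by rw [hG]; simpa using h1)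
    rw [heq, ← Real.le_log_iff_exp_le (dt_pos hκ q)] at h2
    have h4 := mul_le_mul_of_nonneg_left (hq p) ht
    linarith [(abs_le.1 (hD q)).2, (abs_le.1 (hF q)).1]

/-- Yau's estimate of the oscillation. -/
theorem osc_est [ConnectedSpace X] (hn : 0 < n) {κ : Frm M.toAtl} (hκ : Kae M.toAtl κ) (D : ℝ) :
    ∃ L : ℝ, ∀ u : X → ℝ, M.Sm u → PosF M.toAtl (κ + ddc M.toAtl u) →
      (∀ p, dt M (κ + ddc M.toAtl u) p ≤ D) → ∀ p q, u q - u p ≤ L := by
  obtain ⟨a, C, ha, hC⟩ := expint hn hκ.1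
  have hb : 0 < a / 2 := half_pos ha
  obtain ⟨L, hL⟩ := abp hn (hκ.smul hb) (((a / 2) ^ n * D) ^ 2 * C)
  refine ⟨L / (a / 2), fun u hu hp hD p q => ?_⟩
  obtain ⟨x, hx⟩ := APC2_max hu.continuous p
  have hv : M.Sm fun y => u y - u x := fun b => (hu b).sub contDiffOn_const
  have hv' : M.Sm ((a / 2) • fun y => u y - u x) := fun b => (hv b).const_smul (a / 2)
  have hη : Kae M.toAtl (κ + ddc M.toAtl fun y => u y - u x) :=
    ⟨hκ.1.add (isF_ddc hv), posF_shift hp _⟩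
  have e : (a / 2) • κ + ddc M.toAtl ((a / 2) • fun y => u y - u x) =
      (a / 2) • (κ + ddc M.toAtl fun y => u y - u x) := by rw [ddc_smul, smul_add]
  have hc := hu.continuous
  have h1 := hL _ (fun y => (a / 2) ^ n * D * Real.exp (a / 2 * (u x - u y))) hv' (by fun_prop)
    (by rw [e]; exact (hη.smul hb).2) (fun y => by
      rw [e, dt_smul hη.1, dt_shift, mul_comm (Real.exp _), mul_assoc, ← Real.exp_add]
      have e2 : a / 2 * (u x - u y) + ((a / 2) • fun y => u y - u x) y = 0 := by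
        simp only [Pi.smul_apply, smul_eq_mul]
        ring
      rw [e2, Real.exp_zero, mul_one]
      exact mul_le_mul_of_nonneg_left (hD y) (by positivity)) (by
      have e2 : ∀ y, ((a / 2) ^ n * D * Real.exp (a / 2 * (u x - u y))) ^ 2 =
          ((a / 2) ^ n * D) ^ 2 * Real.exp (a * (u x - u y)) := fun y => by
        rw [mul_pow, ← Real.exp_nat_mul]
        congr 2
        push_cast
        ring
      simp only [e2]
      rw [integral_const_mul]
      exact mul_le_mul_of_nonneg_left (hC u hu hp.nn x hx) (sq_nonneg _)) p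
  simp only [Pi.smul_apply, smul_eq_mul] at h1
  rw [le_div_iff₀ hb]
  nlinarith [hx q]

theorem c2_t (hn : 0 < n) {κ : Frm M.toAtl} (hκ : Kae M.toAtl κ) (E L : ℝ) :
    ∃ C : ℝ, 0 < C ∧ ∀ F u : X → ℝ, M.Sm F → (∀ p, |F p| ≤ E) →
      (∀ p, -E ≤ trF M.toAtl κ (ddc M.toAtl F) p) → M.Sm u → (∀ p q, u q - u p ≤ L) →
      PosF M.toAtl (κ + ddc M.toAtl u) →
      (∀ p, dt M (κ + ddc M.toAtl u) p = Real.exp (F p)) →
      ∀ p, trF M.toAtl κ (κ + ddc M.toAtl u) p ≤ C ∧ trF M.toAtl (κ + ddc M.toAtl u) κ p ≤ C := by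
  obtain ⟨B, hB0, hB⟩ := yau_ineq' (M := M) hn hκ
  obtain ⟨D, -, hD⟩ := APC2_bdd (sm_log_dt hκ).continuous
  obtain ⟨T, hT0, hT⟩ := APC2_bdd (sm_trF hκ (isF_th M)).continuous
  set A := B + (T + n + E) + 1 with hA
  set R := Real.exp (E + D) with hR
  set K := n * ((A * n) ^ (n - 1) * R) * Real.exp (A * L) with hK
  refine ⟨max 1 (max K (n * (K ^ (n - 1) * R))), lt_max_of_lt_left one_pos,
    fun F u hFs hF hFt hu huL hpos heq p => ?_⟩
  set η := κ + ddc M.toAtl u with hηd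
  have hη : Kae M.toAtl η := ⟨hκ.1.add (isF_ddc hu), hpos⟩
  have hE : 0 ≤ E := (abs_nonneg _).trans (hF p)
  have hn1 : (1 : ℝ) ≤ n := by exact_mod_cast hn
  have hA0 : 0 < A := by positivity
  have Gκ := (posF_iff hκ.1).1 hκ.2
  have Gη := (posF_iff hη.1).1 hη.2
  have hN := trF_pos hn hκ hη
  have hτ := trF_pos hn hη hκ
  have hlog : (fun q => Real.log (dt M η q)) = F := by
    funext q; rw [heq, Real.log_exp]
  have r1 : ∀ q, dt M η q / dt M κ q ≤ R := fun q => by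
    rw [heq, ← Real.exp_log (dt_pos hκ q), ← Real.exp_sub]
    exact Real.exp_le_exp.2 (by
      linarith [(abs_le.1 (hD q)).1, (abs_le.1 (hF q)).2])
  have r2 : ∀ q, dt M κ q / dt M η q ≤ R := fun q => by
    rw [heq, ← Real.exp_log (dt_pos hκ q), ← Real.exp_sub]
    exact Real.exp_le_exp.2 (by
      linarith [(abs_le.1 (hD q)).2, (abs_le.1 (hF q)).1])
  have hls : M.Sm fun q => Real.log (trF M.toAtl κ η q) := fun a =>
    (sm_trF hκ hη.1 a).log fun _ _ => (hN _).ne'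
  have hAu : M.Sm (A • u) := fun a => (hu a).const_smul A
  have hg : M.Sm ((fun q => Real.log (trF M.toAtl κ η q)) - A • u) := fun a =>
    (hls a).sub (hAu a)
  obtain ⟨q, hq⟩ := APC2_max hg.continuous p
  have h1 : trF M.toAtl η (ddc M.toAtl ((fun q => Real.log (trF M.toAtl κ η q)) - A • u)) q ≤
      0 := by
    have := trace_mul_nonneg (Gη q).inv.posSemidef (GM_of_max hg hq)
    rw [mul_neg, trace_neg, Complex.neg_re] at this
    exact neg_nonneg.1 this
  rw [ddc_sub, trF_sub _ (isF_ddc hls) (isF_ddc hAu), ddc_smul, trF_smul _ (isF_ddc hu)] at h1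
  have h2 := hB η hη q
  have h4 : (n : ℝ) = trF M.toAtl η κ q + trF M.toAtl η (ddc M.toAtl u) q := by
    rw [← trF_add _ hκ.1 (isF_ddc hu), trF_self hη]
  rw [hlog, trF_add _ (isF_th M) (isF_ddc hFs)] at h2
  have h5 : (n : ℝ) ^ 2 ≤ trF M.toAtl κ η q * trF M.toAtl η κ q := sq_le_trace_mul (Gκ q) (Gη q)
  have h6 : -((T + n + E) * trF M.toAtl η κ q) ≤ (trF M.toAtl κ (th M) q +
      trF M.toAtl κ (ddc M.toAtl F) q) /
        trF M.toAtl κ η q := by
    rw [le_div_iff₀ (hN q)]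
    have k1 : 1 ≤ trF M.toAtl η κ q * trF M.toAtl κ η q := by nlinarith
    have k2 := mul_le_mul_of_nonneg_left k1 (by positivity : 0 ≤ T + n + E)
    nlinarith [(abs_le.1 (hT q)).1, hFt q, hN q]
  have h7 : trF M.toAtl η κ q ≤ A * n := by nlinarith
  have h8 : trF M.toAtl κ η q ≤ n * ((A * n) ^ (n - 1) * R) := by
    have k1 := trace_le_pow (Gκ q) (Gη q)
    rw [APC2_ratio] at k1
    refine k1.trans (mul_le_mul_of_nonneg_left (mul_le_mul (pow_le_pow_left₀ (hτ q).le h7 _)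
      (r1 q) (div_pos (dt_pos hη q) (dt_pos hκ q)).le (by positivity)) (by positivity))
  have h9 : trF M.toAtl κ η p ≤ K := by
    have k1 := hq p
    simp only [Pi.sub_apply, Pi.smul_apply, smul_eq_mul] at k1
    have k2 : Real.log (trF M.toAtl κ η p) ≤ Real.log (trF M.toAtl κ η q) + A * L := by
      nlinarith [huL q p]
    rw [Real.log_le_iff_le_exp (hN p), Real.exp_add, Real.exp_log (hN q)] at k2
    exact k2.trans (mul_le_mul_of_nonneg_right h8 (Real.exp_pos _).le)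
  refine ⟨h9.trans (le_max_of_le_right (le_max_left _ _)),
    le_trans ?_ (le_max_of_le_right (le_max_right _ _))⟩
  have k1 := trace_le_pow (Gη p) (Gκ p)
  rw [APC2_ratio] at k1
  exact k1.trans (mul_le_mul_of_nonneg_left (mul_le_mul (pow_le_pow_left₀ (hN p).le h9 _)
    (r2 p) (div_pos (dt_pos hκ p) (dt_pos hη p)).le (pow_nonneg ((hN p).le.trans h9) _))
    (by positivity))

theorem apriori_t [ConnectedSpace X] (hn : 0 < n) {κ : Frm M.toAtl} (hκ : Kae M.toAtl κ) {F : X → ℝ}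
    (hF : M.Sm F) {K : M.ι → Set (Cn n)} (hK : ∀ a, IsCompact (K a))
    (hKt : ∀ a, K a ⊆ (M.e a).target) :
    ∃ c L : ℝ, 0 < c ∧ 0 ≤ L ∧ ∀ τ ∈ Icc (0 : ℝ) 1, ∀ u, M.Sm u →
      PosF M.toAtl (κ + ddc M.toAtl u) →
      (∀ p, dt M (κ + ddc M.toAtl u) p = Real.exp (τ * u p + F p)) →
      (∀ p, |τ * u p| ≤ L) ∧ (∀ p q, u q - u p ≤ L) ∧ ∀ a, ∀ z ∈ K a,
        (LM ((κ + ddc M.toAtl u) a) z - (c : ℂ) • 1).PosSemidef ∧
        (((c⁻¹ : ℝ) : ℂ) • 1 - LM ((κ + ddc M.toAtl u) a) z).PosSemidef ∧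
        ∀ j k, ‖fderiv ℝ (fun y => LM ((κ + ddc M.toAtl u) a) y j k) z‖ ≤ L := by
  choose ρ hρ hρt using fun a =>
    (hK a).exists_cthickening_subset_open (M.e a).open_target (hKt a)
  obtain ⟨r, hr, hr0⟩ := ((eventually_all.2 fun a => Ioc_mem_nhdsGT (hρ a)).and
    (self_mem_nhdsWithin (a := (0 : ℝ)) (s := Ioi 0))).exists
  have hK' : ∀ a, IsCompact (cthickening r (K a)) := fun a => (hK a).cthickening
  have hKt' : ∀ a, cthickening r (K a) ⊆ (M.e a).target := fun a =>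
    (cthickening_mono (hr a).2 _).trans (hρt a)
  obtain ⟨c, hc, hell⟩ := ApiX2_ell hκ hK' hKt'
  have hb : ∀ g : X → ℝ, M.Sm g → ∀ᶠ E : ℝ in atTop, ∀ p, |g p| ≤ E := by
    intro g hg
    obtain ⟨C, hC⟩ := isCompact_univ.exists_bound_of_continuousOn hg.continuous.continuousOn
    exact (eventually_ge_atTop C).mono fun E hE p => (hC p (mem_univ p)).trans hE
  have hφ₀ := (isF_ddc hF).add (isF_th M)
  have hφ₁ := ((isF_ddc hF).add (isF_th M)).sub hκ.1
  obtain ⟨E, ⟨b₀, t₀⟩, e₀, e₁⟩ := (((hb _ hF).and (hb _ (sm_trF hκ (isF_ddc hF)))).and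
    ((APMain_EB hφ₀ hK' hKt').and (APMain_EB hφ₁ hK' hKt'))).exists
  obtain ⟨L₀, hL₀⟩ := c0_t hκ E
  obtain ⟨L₂, hL₂⟩ := osc_est hn hκ (Real.exp (L₀ + E))
  obtain ⟨C, hC, hC2⟩ := c2_t hn hκ (|L₀| + n + E) L₂
  obtain ⟨L₁, hL₁⟩ := AP.calabi_local_t n hr0 (div_pos hc hC) E
  refine ⟨c / C, max (max (max L₀ L₂) L₁) 0, div_pos hc hC, le_max_right _ _,
    fun τ hτ u hu hp hd => ?_⟩
  have hτ1 := sub_nonneg.2 hτ.2
  have hη : Kae M.toAtl (κ + ddc M.toAtl u) := ⟨hκ.1.add (isF_ddc hu), hp⟩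
  have hu0 := hL₀ τ F u hτ.1 b₀ hu hp hd
  have hu2 := hL₂ u hu hp fun p => by
    rw [hd]
    exact Real.exp_le_exp.2 (by linarith [(abs_le.1 (hu0 p)).2, (abs_le.1 (b₀ p)).2])
  have hH : M.Sm fun p => τ * u p + F p := fun a => (contDiffOn_const.mul (hu a)).add (hF a)
  have hn0 : (0 : ℝ) ≤ n := n.cast_nonneg
  have hFb : ∀ p, |τ * u p + F p| ≤ |L₀| + n + E := fun p =>
    (abs_add_le _ _).trans (by linarith [hu0 p, b₀ p, le_abs_self L₀])
  have hFt : ∀ p, -(|L₀| + n + E) ≤ trF M.toAtl κ (ddc M.toAtl fun p => τ * u p + F p) p :=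
    fun p => by
      have e : (ddc M.toAtl fun p => τ * u p + F p) = τ • ddc M.toAtl u + ddc M.toAtl F := rfl
      have h3 := (trF_pos hn hκ hη p).le
      rw [trF_add _ hκ.1 (isF_ddc hu), trF_self hκ] at h3
      rw [e, trF_add κ ((isF_ddc hu).smul _) (isF_ddc hF), trF_smul κ (isF_ddc hu)]
      nlinarith [neg_le_of_abs_le (t₀ p), mul_nonneg hτ.1 h3, mul_nonneg hτ1 hn0, abs_nonneg L₀]
  have hps : ∀ a, ∀ z ∈ cthickening r (K a),
      (LM ((κ + ddc M.toAtl u) a) z - ((c / C : ℝ) : ℂ) • 1).PosSemidef ∧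
        ((((c / C)⁻¹ : ℝ) : ℂ) • 1 - LM ((κ + ddc M.toAtl u) a) z).PosSemidef := by
    intro a z hz
    have hz' := hKt' a hz
    have h3 := hC2 _ u hH hFb hFt hu hu2 hp hd ((M.e a).symm z)
    rw [trF_eq hκ hη.1 ((M.e a).map_target hz'), trF_eq hη hκ.1 ((M.e a).map_target hz'),
      (M.e a).right_inv hz'] at h3
    exact APMain_psd hc hC (hκ.2 a z hz') (hp a z hz') (hell a z hz).1 (hell a z hz).2 h3.1 h3.2
  refine ⟨fun p => (hu0 p).trans (((le_max_left _ _).trans (le_max_left _ _)).trans (le_max_left _ _)),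
    fun p q => (hu2 p q).trans (((le_max_right _ _).trans (le_max_left _ _)).trans (le_max_left _ _)),
    fun a z hz => ?_⟩
  have hball : closedBall z r ⊆ cthickening r (K a) := closedBall_subset_cthickening hz r
  refine ⟨(hps a z (self_subset_cthickening _ hz)).1, (hps a z (self_subset_cthickening _ hz)).2,
    fun j k => le_trans ?_ ((le_max_right _ _).trans (le_max_left _ _))⟩
  refine hL₁ τ z _ _ ((1 - τ) • (ddc M.toAtl F + th M) a + τ • (ddc M.toAtl F + th M - κ) a)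
    (abs_le.2 ⟨by linarith [hτ.1], hτ.2⟩) (M.e a).open_target (hball.trans (hKt' a)) (hη.1.sm a)
    (((hφ₀.smul (1 - τ)).add (hφ₁.smul τ)).sm a) (hp a) (fun y hy => ?_)
    (fun y hy => ⟨(hps a y (hball hy)).1, (hps a y (hball hy)).2, APMain_comb hτ ?_
      (e₀ a y (hball hy)) (e₁ a y (hball hy))⟩) j k
  · have hy' := (M.e a).map_target hy
    have h3 := dt_eq hη.1 hy'
    rw [(M.e a).right_inv hy, hd, eq_div_iff (Api_k_pos M hy').ne'] at h3
    rw [← h3, Real.log_mul (Real.exp_pos _).ne' (Api_k_pos M hy').ne', Real.log_exp]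
    simp only [Pi.add_apply, Pi.sub_apply, Pi.smul_apply, smul_eq_mul, ddc, th, Atl.loc]
    ring
  · filter_upwards [(M.e a).open_target.mem_nhds (hKt' a (hball hy))] with w hw
    exact ⟨hφ₀.smAt hw, hφ₁.smAt hw⟩

end Vale.Agent.P272
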